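import Vale.Agent.P011UI.Poly
import Vale.Agent.P011UH.Cl
import Vale.Agent.P011UB.Root

/-!
Representations which are separable on the root subgroups.
-/

set_option autoImplicit false
set_option linter.all false

namespace Vale.Agent.P011IP

open Matrix Finset Vale.Agent.P183CH Vale.Agent.P011UI

section glue

open Vale.Agent.P011UH (ev gx ev_map gx_map ev_mul dec ev_eq)

variable {K G m : Type} [Field K] [Group G] [Fintype m] [DecidableEq m]

theorem glue (ρ : G →* Matrix m m K) (h1 : ∀ g, (ρ g).det = 1) {δ : MvPolynomial (m × m) K}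
    (hδ : ev K (1 : Matrix m m K) δ ≠ 0) {φ : G → K}
    (h : ∀ g : G, ∃ (N : ℕ) (p : MvPolynomial _ K), ∀ x : G, ev K (ρ x) δ ≠ 0 →
      ev K (ρ x) δ ^ N * φ (g⁻¹ * x) = ev K (ρ x) p) : ∃ p, ∀ g, φ g = ev K (ρ g) p := by
  let I : Ideal (MvPolynomial (m × m) K) :=
    { carrier := {p | ∃ q, ∀ g, ev K (ρ g) p * φ g = ev K (ρ g) q}
      add_mem' := fun ⟨p, a⟩ ⟨q, b⟩ => ⟨p + q, fun g => by rw [map_add, map_add, add_mul, a, b]⟩
      zero_mem' := ⟨0, fun g => by rw [map_zero, zero_mul]⟩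
      smul_mem' := fun c _ ⟨p, a⟩ => ⟨c * p, fun g => by
        rw [smul_eq_mul, map_mul, map_mul, mul_assoc, a]⟩ }
  by_cases e : I = ⊤
  · obtain ⟨q, hq⟩ := (Ideal.eq_top_iff_one I).1 e
    exact ⟨q, fun g => by rw [← hq, map_one, one_mul]⟩
  obtain ⟨J, hJ, e⟩ := I.exists_le_maximal e
  let F := AlgebraicClosure K
  obtain ⟨x, rfl⟩ := MvPolynomial.eq_vanishingIdeal_singleton_of_isMaximal F hJ
  let M : Matrix m m F := of fun a b => x (a, b)
  have e1 : ∀ p ∈ I, ev K M p = 0 := fun p hp => e hp x rfl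
  have e2 : ∀ p, (∀ g, ev K (ρ g) p = 0) → ev K M p = 0 := fun p hp =>
    e1 p ⟨0, fun g => by rw [hp, zero_mul, map_zero]⟩
  have e3 : ∀ g, ev K ((ρ g).map (algebraMap K F) * M) δ = 0 := fun g => by
    obtain ⟨N, p, hp⟩ := h g
    have := e1 (ev K ((ρ g).map (algebraMap K _) * gx _ K) δ ^ (N + 1))
      ⟨ev K ((ρ g).map (algebraMap K _) * gx _ K) (p * δ), fun y => by
        rw [← ev_map, map_pow, ← ev_map, (ev_mul (ρ g) (ρ y)).2, map_mul]
        change ev K (ρ g * ρ y) δ ^ _ * _ = ev K (ρ g * ρ y) p * ev K (ρ g * ρ y) δ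
        rw [← map_mul]
        by_cases c : ev K (ρ (g * y)) δ = 0
        · rw [c, zero_pow N.succ_ne_zero, zero_mul, mul_zero]
        · rw [← hp _ c, inv_mul_cancel_left]
          ring⟩
    rw [map_pow, ← ev_map, (ev_mul (ρ g) _).2] at this
    exact pow_eq_zero_iff N.succ_ne_zero |>.1 this
  have a1 : ∀ {L : Type} [CommRing L] [Algebra K L] (M : Matrix m m L),
      ev K M ((gx _ K).det - 1) = M.det - 1 := fun M => by
    rw [map_sub, AlgHom.map_det, AlgHom.mapMatrix_apply, gx_map, map_one]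
  have a2 : M.det = 1 := by
    rw [← sub_eq_zero, ← a1]
    exact e2 _ fun g => by rw [a1, h1, sub_self]
  have a3 : ∀ {L : Type} [CommRing L] [Algebra K L] (M : Matrix m m L),
      (gx _ K).adjugate.map (ev K M) = M.adjugate := fun M => by
    rw [← AlgHom.mapMatrix_apply, AlgHom.map_adjugate, AlgHom.mapMatrix_apply, gx_map]
  have a4 : ∀ p, (∀ g, ev K (ρ g) p = 0) → ev K M.adjugate p = 0 := fun p hp => by
    rw [← a3, ev_map]
    refine e2 _ fun g => ?_
    rw [← ev_map, a3, ← hp g⁻¹]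
    congr 2
    rw [← mul_one (adjugate _), ← map_one ρ, ← mul_inv_cancel g, map_mul, ← mul_assoc, adjugate_mul,
      h1, one_smul, one_mul]
  have a5 : ∀ y : Matrix m m F, ev F y (ev K (gx _ F * M.map (algebraMap F _)) δ) =
      ev K (y * M) δ := fun y => by
    have := ev_map ((ev F y).restrictScalars K) (gx _ F * M.map (algebraMap F _)) δ
    rw [← show _ = y * M from (ev_mul M y).1]
    exact this.symm
  obtain ⟨ι, b, c, e⟩ := dec (K := K) (ev K (gx _ F * M.map (algebraMap F _)) δ)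
  have a6 := e M.adjugate
  rw [a5, adjugate_mul, a2, one_smul, sum_eq_zero fun i hi => by
    rw [a4 _ fun g => linearIndependent_iff'.1 b.linearIndependent _ (fun i => ev K (ρ g) (c i)) ?_
      i hi, zero_mul]
    rw [← e3 g, ← a5, e]
    exact sum_congr rfl fun i _ => by
      rw [Algebra.smul_def]
      exact congrArg (· * _) (ev_map (Algebra.ofId K F) _ _).symm] at a6
  have := ev_map (Algebra.ofId K F) (1 : Matrix m m K) δ
  rw [Matrix.map_one _ (map_zero _) (map_one _), a6] at this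
  exact absurd ((algebraMap K F).injective (this.symm.trans (map_zero _).symm)) hδ

theorem glue' {ht : m → ℤ} {J : Type} [Fintype J] [DecidableEq J] (ρ₁ : G →* Matrix m m K)
    (ρ : G →* Matrix J J K) (h1 : ∀ g, (ρ₁ g).det = 1)
    (h : En (Lc (PF ρ₁) (fun g => Dl ht (ρ₁ g)) (en_PF _).dl) ρ) : En (PF ρ₁) ρ := fun a b => by
  obtain ⟨δ, hδ⟩ := mem_PF.1 ((en_PF (id : Matrix m m K → _)).dl (ht := ht))
  simp only [← ev_eq, id] at hδ
  refine mem_PF.2 ?_
  simp only [← ev_eq]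
  refine glue ρ₁ h1 (δ := δ) (by rw [← hδ, Dl_one]; exact one_ne_zero) fun g => ?_
  obtain ⟨N, q, h2, h3⟩ := ((En.const (ρ g⁻¹)).mul h) a b
  obtain ⟨p, hp⟩ := mem_PF.1 h2
  refine ⟨N, p, fun x hx => ?_⟩
  rw [ev_eq _ p, ← hp, ← hδ, map_mul]
  exact h3 x (by rw [← hδ] at hx; exact hx)

end glue

variable {R : RS} {k G Y : Type} [Field k] [Group G] {Γ : RG R k G} {n : ℕ}
  {ρ₁ : G →* Matrix (Fin n) (Fin n) k} {w : Fin n → Fin R.r → ℤ} {B : Subalgebra k (Y → k)}

variable (Γ ρ₁ w) in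
/-- representations which are polynomial and separable on the root subgroups -/
structure Sp : Prop where
  rt : R.Ok
  ok : Γ.Ok
  h_eq : ∀ i t, ρ₁ (Γ.h i t) = diagonal fun a => ((t ^ w a i : kˣ) : k)
  px : ∀ i, ∃ X : Matrix (Fin n) (Fin n) (Polynomial k),
    (∀ t, ρ₁ (Γ.x (R.α i) t) = X.map (Polynomial.eval t)) ∧ ∃ a b, (X a b).coeff 1 ≠ 0

namespace Sp

variable (h : Sp Γ ρ₁ w)
include h

theorem all {γ : R.Q} (hγ : γ ∈ R.Φ) : ∃ X : Matrix (Fin n) (Fin n) (Polynomial k),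
    (∀ t, ρ₁ (Γ.x γ t) = X.map (Polynomial.eval t)) ∧ ∃ a b, (X a b).coeff 1 ≠ 0 := by
  obtain ⟨v, hv, i, rfl⟩ := h.rt.exists_conj hγ
  obtain ⟨g, -, hg⟩ := RG.exists_rep' (Γ := Γ) hv
  obtain ⟨c, hc⟩ := h.ok.rep_conj h.rt hg (h.rt.simple i)
  obtain ⟨X, h1, h2⟩ := h.px i
  refine ⟨(ρ₁ g).map Polynomial.C * X.map (·.comp (Polynomial.C (c⁻¹).1 * Polynomial.X)) *
    (ρ₁ g⁻¹).map Polynomial.C, fun t => ?_, ?_⟩
  · have := (hc ((c⁻¹).1 * t)).1
    rw [Units.mul_inv_cancel_left] at this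
    rw [← this, map_mul, map_mul, h1]
    ext a b
    simp [mul_apply, Polynomial.eval_finset_sum, Polynomial.eval_comp]
  · by_contra! hn
    have : ρ₁ g * ((c⁻¹).1 • X.map (·.coeff 1)) * ρ₁ g⁻¹ = 0 := Matrix.ext fun a b => by
      refine Eq.trans ?_ (hn a b)
      simp only [mul_apply, Polynomial.finset_sum_coeff, map_apply, Polynomial.coeff_mul_C, sum_mul,
        Polynomial.coeff_C_mul, Polynomial.comp_C_mul_X_coeff, Matrix.smul_apply, smul_eq_mul,
        pow_one]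
      exact sum_congr rfl fun _ _ => sum_congr rfl fun _ _ => by ring
    have := congrArg (fun M => ρ₁ g⁻¹ * M * ρ₁ g) this
    simp only [← mul_assoc, ← map_mul, inv_mul_cancel, map_one, one_mul, mul_zero, zero_mul] at this
    rw [mul_assoc, ← map_mul, inv_mul_cancel, map_one, mul_one] at this
    obtain ⟨a, b, e⟩ := h2
    exact mul_ne_zero (c⁻¹).ne_zero e (congrFun₂ this a b)

theorem deg [Infinite k] {γ : R.Q} (hγ : γ ∈ R.Φ) {X : Matrix (Fin n) (Fin n) (Polynomial k)}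
    (hX : ∀ t, ρ₁ (Γ.x γ t) = X.map (Polynomial.eval t)) {a b : Fin n} {e : ℕ}
    (he : (X a b).coeff e ≠ 0) : w a = w b + e • R.pr γ := funext fun i => by
  refine P011UB.zpow_inj (k := k) fun c => Units.ext (mul_left_cancel₀ he ?_)
  have : X a b * Polynomial.C ((c ^ w a i : kˣ) : k) =
      (X a b).comp (Polynomial.C ((c ^ R.pr γ i : kˣ) : k) * Polynomial.X) *
        Polynomial.C ((c ^ w b i : kˣ) : k) := Polynomial.funext fun t => by
    have := congrArg (fun g => ρ₁ g a b) (mul_inv_eq_iff_eq_mul.1 (h.ok.hx i c γ hγ t))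
    simp only [map_mul, h.h_eq, diagonal_mul, mul_diagonal, hX, map_apply] at this
    simp only [Polynomial.eval_mul, Polynomial.eval_C, Polynomial.eval_comp, Polynomial.eval_X]
    rw [← this, mul_comm]
  have := congrArg (Polynomial.coeff · e) this
  simp only [Polynomial.coeff_mul_C, Polynomial.comp_C_mul_X_coeff] at this
  rw [this, Pi.add_apply, Pi.smul_apply, nsmul_eq_mul, zpow_add, mul_comm (e : ℤ), zpow_mul,
    zpow_natCast]
  push_cast
  ring

theorem supp [Infinite k] {γ : R.Q} (hγ : γ ∈ R.Φ) (t : k) {a b : Fin n}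
    (e : (ρ₁ (Γ.x γ t) - 1) a b ≠ 0) : ∃ m : ℕ, 1 ≤ m ∧ w a = w b + m • R.pr γ := by
  obtain ⟨X, hX, -⟩ := h.all hγ
  by_contra! c
  have : X a b = Polynomial.C ((X a b).coeff 0) := Polynomial.ext fun m => by
    by_cases d : m = 0
    · simp [d]
    · rw [Polynomial.coeff_C_ne_zero d]
      by_contra f
      exact c m (Nat.pos_of_ne_zero d) (h.deg hγ hX f)
  refine e ?_
  rw [← map_one ρ₁, ← h.ok.x_zero hγ, hX, hX, Matrix.sub_apply, map_apply, map_apply, this]
  simp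

theorem fl_X [Infinite k] (s : ℤ) {S : Set R.Q} (hS : ∀ γ ∈ S, γ ∈ R.Φ → 0 < s * ∑ i, γ i) {g : G}
    (hg : g ∈ Γ.X S) : Fl (fun a => s * R.wht (w a)) 1 (ρ₁ g - 1) := by
  have key : ∀ γ ∈ S, γ ∈ R.Φ → ∀ t, Fl (fun a => s * R.wht (w a)) 1 (ρ₁ (Γ.x γ t) - 1) :=
    fun γ h1 hγ t a b e => by
      obtain ⟨m, hm, h5⟩ := h.supp hγ t e
      have hD : 0 < R.A.det ^ 2 := by have := h.rt.det; positivity
      have : 0 < R.A.det ^ 2 * (m * (s * ∑ i, γ i)) :=
        mul_pos hD (mul_pos (by exact_mod_cast hm) (hS γ h1 hγ))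
      dsimp only
      rw [wht_eq h5]
      nlinarith
  induction hg using Subgroup.closure_induction'' with
  | mem x hx =>
    obtain ⟨γ, h1, hγ, t, rfl⟩ := hx
    exact key γ h1 hγ t
  | inv_mem x hx =>
    obtain ⟨γ, h1, hγ, t, rfl⟩ := hx
    exact h.ok.x_neg hγ t ▸ key γ h1 hγ _
  | one => exact fun a b e => absurd (by simp) e
  | mul x y _ _ hx hy => exact map_mul ρ₁ x y ▸ hx.mul_sub zero_le_one hy

theorem tr_U [Infinite k] {u : G} (hu : u ∈ Γ.U) : Tr (fun a => R.wht (w a)) (ρ₁ u) := by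
  simpa using tr_of (h.fl_X 1 (fun γ h1 hγ => by simpa using h.rt.sum_pos hγ h1) hu)

theorem tr_V [Infinite k] {v : G} (hv : v ∈ Γ.V) : Tr (-fun a => R.wht (w a)) (ρ₁ v) := by
  simpa [Pi.neg_def] using tr_of (h.fl_X (-1) (fun γ h1 hγ => by
    obtain ⟨i, hi⟩ := Function.ne_iff.1 (h.rt.sign γ hγ).1
    have := sum_neg' (fun j _ => h1 j) ⟨i, mem_univ _, (h1 i).lt_of_ne hi⟩
    simpa using this) hv)

theorem pe [Infinite k] {ε : R.Q} (hs : 0 < ∑ i, ε i) (c : R.Q → k) {a b : Fin n}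
    (e : w a = w b + R.pr ε) : ∀ l : List R.Q, (∀ γ ∈ l, γ ∈ R.Φ ∧ ∑ i, ε i ≤ ∑ i, γ i) →
    Fl (fun a => R.wht (w a)) (R.A.det ^ 2 * ∑ i, ε i) (ρ₁ (Γ.P l c) - 1) ∧
      (ε ∉ l → (ρ₁ (Γ.P l c) - 1) a b = 0)
  | [], _ => ⟨fun a b e => absurd (by simp [RG.P]) e, fun _ => by simp [RG.P]⟩
  | γ :: l, hl => by
    obtain ⟨h1, h2⟩ := pe hs c e l fun e he => hl e (List.mem_cons_of_mem _ he)
    obtain ⟨hγ, h3⟩ := hl _ List.mem_cons_self
    have hD : 0 < R.A.det ^ 2 := by have := h.rt.det; positivity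
    rw [RG.P_cons, map_mul]
    have h4 : Fl (fun a => R.wht (w a)) (R.A.det ^ 2 * ∑ i, ε i) (ρ₁ (Γ.x γ (c γ)) - 1) :=
      fun a b e => by
      obtain ⟨m, hm, h5⟩ := h.supp hγ _ e
      have : (1 : ℤ) ≤ m := by exact_mod_cast hm
      have : (∑ i, ε i) ≤ m * ∑ i, γ i := by nlinarith
      have := mul_le_mul_of_nonneg_left this hD.le
      have := wht_eq h5
      dsimp only
      omega
    refine ⟨h4.mul_sub (by positivity) h1, fun f => ?_⟩
    have h5 := wht_eq (m := 1) (e.trans (by rw [one_smul]))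
    have h6 : ((ρ₁ (Γ.x γ (c γ)) - 1) * (ρ₁ (Γ.P l c) - 1)) a b = 0 := by
      by_contra c
      have g := h4.mul h1 a b c
      have := mul_pos hD hs
      simp only [Nat.cast_one, one_mul] at h5 g
      omega
    have h7 : ∀ M N : Matrix (Fin n) (Fin n) k,
        M * N - 1 = (M - 1) * (N - 1) + ((M - 1) + (N - 1)) := fun M N => by noncomm_ring
    rw [h7, Matrix.add_apply, Matrix.add_apply, h6, zero_add,
      h2 fun d => f (List.mem_cons_of_mem _ d), add_zero]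
    by_contra d
    obtain ⟨m, hm, h8⟩ := h.supp hγ _ d
    have h9 : ε = m • γ := h.rt.pr_inj (by rw [RS.pr_nsmul]; exact add_left_cancel (e.symm.trans h8))
    have : ∑ i, ε i = m * ∑ i, γ i := by rw [h9]; simp [mul_sum]
    have g : (1 : ℤ) ≤ m := by exact_mod_cast hm
    have : (m : ℤ) = 1 := by nlinarith
    refine f ?_
    rw [h9, show m = 1 by exact_mod_cast this, one_smul]
    exact List.mem_cons_self

theorem en_x {γ : R.Q} (hγ : γ ∈ R.Φ) {c : Y → k} (hc : c ∈ B) :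
    En B fun y => ρ₁ (Γ.x γ (c y)) := fun a b => by
  obtain ⟨X, hX, -⟩ := h.all hγ
  simp only [hX, map_apply]
  exact P011UH.pol_mem hc _

variable {J : Type} [Fintype J] [DecidableEq J] {ρ : G →* Matrix J J k}
  (hρ : ∀ γ ∈ R.Φ, ∀ c ∈ B, En B fun y => ρ (Γ.x γ (c y)))
include hρ

theorem en_P [Infinite k] (l : List R.Q) (h1 : l.Nodup) (h2 : ∀ γ ∈ l, γ ∈ R.Pos)
    (h3 : l.Pairwise fun γ δ => ∑ i, γ i ≤ ∑ i, δ i) (c : Y → R.Q → k)
    (e : En B fun y => ρ₁ (Γ.P l (c y))) : En B fun y => ρ (Γ.P l (c y)) := by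
  induction l with
  | nil => exact En.const (ρ 1)
  | cons γ l ih =>
    have hγ := h2 γ List.mem_cons_self
    have hs := h.rt.sum_pos hγ.1 hγ.2
    obtain ⟨X, hX, a, b, hab⟩ := h.all hγ.1
    have d : w a = w b + R.pr γ := (h.deg hγ.1 hX hab).trans (by rw [one_smul])
    have d1 : X a b = Polynomial.monomial 1 ((X a b).coeff 1) := Polynomial.ext fun m => by
      rw [Polynomial.coeff_monomial]
      split_ifs with f
      · rw [f]
      by_contra g
      have h9 : γ = m • γ := h.rt.pr_inj (by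
        rw [RS.pr_nsmul]; exact add_left_cancel (d.symm.trans (h.deg hγ.1 hX g)))
      have : ∑ i, γ i = m * ∑ i, γ i := (congrArg (∑ i, · i) h9).trans (by simp [mul_sum])
      have : (1 : ℤ) = m := mul_right_cancel₀ hs.ne' ((one_mul _).trans this)
      exact f (by exact_mod_cast this)
    have hc : (fun y => c y γ) ∈ B := by
      convert B.smul_mem (e a b) ((X a b).coeff 1)⁻¹ using 1
      funext y
      obtain ⟨p1, -⟩ := h.pe hs (c y) d [γ] (by simpa using hγ.1)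
      obtain ⟨p2, p3⟩ := h.pe hs (c y) d l fun δ hδ =>
        ⟨(h2 δ (List.mem_cons_of_mem _ hδ)).1, List.rel_of_pairwise_cons h3 hδ⟩
      have h5 := wht_eq (m := 1) (d.trans (by rw [one_smul]))
      have hD : 0 < R.A.det ^ 2 := by have := h.rt.det; positivity
      rw [show Γ.P [γ] (c y) = Γ.x γ (c y γ) by simp [RG.P]] at p1
      have h6 : ((ρ₁ (Γ.x γ (c y γ)) - 1) * (ρ₁ (Γ.P l (c y)) - 1)) a b = 0 := by
        by_contra c
        have g := p1.mul p2 a b c
        have := mul_pos hD hs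
        simp only [Nat.cast_one, one_mul] at h5 g
        omega
      have h7 : ∀ M N : Matrix (Fin n) (Fin n) k,
          M * N = (M - 1) * (N - 1) + (M + (N - 1)) := fun M N => by noncomm_ring
      show c y γ = ((X a b).coeff 1)⁻¹ • (ρ₁ (Γ.P (γ :: l) (c y))) a b
      rw [RG.P_cons, map_mul, h7, Matrix.add_apply, Matrix.add_apply, h6,
        p3 (List.nodup_cons.1 h1).1, hX, map_apply, d1, zero_add, add_zero, smul_eq_mul]
      simp [hab]
    simp only [RG.P_cons, map_mul] at e ⊢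
    refine (hρ _ hγ.1 _ hc).mul (ih h1.of_cons (fun δ hδ => h2 δ (List.mem_cons_of_mem _ hδ))
      h3.of_cons ?_)
    convert (h.en_x hγ.1 (neg_mem hc)).mul e
    rw [← mul_assoc, ← map_mul, Pi.neg_apply, h.ok.x_neg hγ.1, inv_mul_cancel, map_one, one_mul]

theorem en_U [Infinite k] {u : Y → G} (hu : ∀ y, u y ∈ Γ.U) (e : En B fun y => ρ₁ (u y)) :
    En B fun y => ρ (u y) := by
  obtain ⟨l, h1, h2⟩ := RS.exists_list (R := R) le_rfl
  let r : R.Q → R.Q → Prop := fun γ δ => ∑ i, γ i ≤ ∑ i, δ i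
  have : Std.Total r := ⟨fun _ _ => le_total _ _⟩
  have : IsTrans _ r := ⟨fun _ _ _ => le_trans⟩
  have p := List.perm_insertionSort r l
  choose c hc using fun y => h.ok.exists_P h.rt RS.cl_Pos (p.nodup_iff.2 h1)
    (fun γ => p.mem_iff.trans (h2 γ)) (RG.U_eq (Γ := Γ) ▸ hu y)
  simp only [hc] at e ⊢
  exact h.en_P hρ _ (p.nodup_iff.2 h1) (fun γ e => (h2 γ).1 (p.mem_iff.1 e))
    (List.pairwise_insertionSort r l) c e

theorem en_V [Infinite k] {v : Y → G} (hv : ∀ y, v y ∈ Γ.V) (e : En B fun y => ρ₁ (v y)) :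
    En B fun y => ρ (v y) := by
  obtain ⟨w₀, h₀⟩ := h.rt.exists_Lg Set.univ
  obtain ⟨g, -, hg⟩ := RG.exists_rep' (Γ := Γ) h₀.1
  have := ((En.const (ρ g⁻¹)).mul (h.en_U hρ (fun y => RG.UJ_le _ (h.ok.Lg_V h.rt hg h₀
    (RG.VJ_univ (Γ := Γ) ▸ hv y))) (e.conj ρ₁ g g⁻¹))).mul (En.const (ρ g))
  simpa only [← map_mul, mul_assoc, inv_mul_cancel, mul_one, inv_mul_cancel_left] using this

end Sp

end Vale.Agent.P011IP
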