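import Vale.Agent.P011IP.Spec
import Vale.Agent.P011IT.Grp

/-!
P011I (helper21): conjugation on the block diagonal matrices.
-/

set_option autoImplicit false
set_option linter.all false

namespace Vale.Agent.P011IP

open Matrix Vale.Agent.P011I Vale.Agent.P183CH Vale.Agent.P183CH.Chev Vale.Agent.P011U

variable {D : Chev} {A F : Type} [CommRing A] [Field F]

variable (D A) in
/-- the block diagonal matrices -/
abbrev BD : Submodule A (D.Mat A) := Sp A fun a b => lb D a = lb D b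

theorem BD.mul {g h : D.Mat A} (a : g ∈ BD D A) (b : h ∈ BD D A) : g * h ∈ BD D A :=
  Sp.mul a b fun _ _ _ => Eq.trans

theorem adm_sum {g : D.Mat A} (a : g ∈ BD D A) (b : g.adjugate ∈ BD D A) (X : D.Mat A) (p : JJ D) :
    ∑ q, Adm D g p q * X q.1.1 q.1.2 = (g * X * g.adjugate) p.1.1 p.1.2 := by
  have : (g * X * g.adjugate) p.1.1 p.1.2 =
      ∑ q : Fin D.n × Fin D.n, g p.1.1 q.1 * g.adjugate q.2 p.1.2 * X q.1 q.2 := by
    simp only [mul_apply, Finset.sum_mul, Fintype.sum_prod_type]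
    rw [Finset.sum_comm]
    exact Finset.sum_congr rfl fun _ _ => Finset.sum_congr rfl fun _ _ => mul_right_comm _ _ _
  refine Eq.symm (this.trans ((Finset.sum_filter_of_ne (p := fun q : Fin D.n × Fin D.n => lb D q.1 = lb D q.2)
    fun q _ h => (a _ _ (left_ne_zero_of_mul (left_ne_zero_of_mul h))).symm.trans (p.2.trans
      (b _ _ (right_ne_zero_of_mul (left_ne_zero_of_mul h))).symm)).symm.trans ?_))
  exact Finset.sum_subtype _ (by simp) fun q : Fin D.n × Fin D.n =>
    g p.1.1 q.1 * g.adjugate q.2 p.1.2 * X q.1 q.2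

theorem adm_mul {g : D.Mat A} (a : g ∈ BD D A) (b : g.adjugate ∈ BD D A) (h : D.Mat A) :
    Adm D (g * h) = Adm D g * Adm D h := Matrix.ext fun p q => by
  refine Eq.trans ?_ (adm_sum a b (vecMulVec (fun r => h r q.1.1) fun r => h.adjugate q.1.2 r) p).symm
  rw [mul_vecMulVec, vecMulVec_mul, Adm, of_apply, adjugate_mul_distrib]
  rfl

theorem adm_one : Adm D (1 : D.Mat A) = 1 := Matrix.ext fun p q => by
  simp only [Adm, of_apply, adjugate_one, one_apply, Subtype.ext_iff, Prod.ext_iff, ite_and,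
    eq_comm (a := q.1.2)]
  split_ifs <;> simp

theorem bd_grp (g : D.grp F) : g.1.1 ∈ BD D F := by
  have key : ∀ {E γ}, DP E → E 1 ∈ D.Dg ℤ γ → ∀ t : F, ex E t ∈ BD D F := fun h d t =>
    Submodule.sum_mem _ fun m _ => Submodule.smul_mem _ _
      (Sp.mono (DP_dg h d m) fun a b e => lb_eq.2 ⟨_, e⟩)
  obtain ⟨g, hg⟩ := g
  refine And.left (b := g⁻¹.1 ∈ BD D F) ?_
  induction hg using Subgroup.closure_induction with
  | mem x hx =>
    obtain ⟨i, t, h | h⟩ := hx
    · obtain rfl : x = (dp_e i).exU t := Units.ext h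
      exact ⟨key (dp_e i) (dg_e i) _, key (dp_e i) (dg_e i) _⟩
    · obtain rfl : x = (dp_f i).exU t := Units.ext h
      exact ⟨key (dp_f i) (dg_f i) _, key (dp_f i) (dg_f i) _⟩
  | one => exact ⟨Sp.one fun _ => rfl, Sp.one fun _ => rfl⟩
  | mul x y _ _ a b => exact ⟨BD.mul a.1 b.1, BD.mul b.2 a.2⟩
  | inv x _ a => exact ⟨a.2, a.1⟩

variable [Algebra F A]

theorem bd_zc {g : D.Mat A} (h : P011UH.Zc F g) : g ∈ BD D A := fun a b e => by_contra fun c => by
  have := h (.X (a, b)) fun s => by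
    rw [P011UH.ev, MvPolynomial.aeval_X]
    exact by_contra fun o => c (bd_grp s a b o)
  rw [P011UH.ev, MvPolynomial.aeval_X] at this
  exact e this

theorem adm_cen {g h : D.Mat A} (a : P011UH.Zc F g) (b : P011UH.Zc F h) (e : Adm D g = 1) :
    g * h = h * g := by
  have : g * h * g.adjugate = h := Matrix.ext fun i j => by
    by_cases c : lb D i = lb D j
    · rw [← adm_sum (bd_zc a) (bd_zc a.adj) h ⟨(i, j), c⟩, e]
      simp [one_apply]
    · rw [not_not.1 (mt (bd_zc b i j) c),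
        not_not.1 (mt (BD.mul (BD.mul (bd_zc a) (bd_zc b)) (bd_zc a.adj) i j) c)]
  conv_rhs => rw [← this, Matrix.mul_assoc, adjugate_mul, a.det, one_smul, Matrix.mul_one]

theorem adm : ADM := fun D F _ _ => by
  have z : ∀ g : D.grp F, P011UH.Zc F g.1.1 := fun g p hp => hp g
  have a : ∀ g h : D.grp F, Adm D (g * h).1.1 = Adm D g.1.1 * Adm D h.1.1 := fun g h =>
    adm_mul (bd_grp g) (bd_zc (z g).adj) _
  have b : ∃ g : D.grp F, Adm D g.1.1 ≠ 1 := ⟨_, fun e =>
    P011IT.x_ncen (GG_ok (D := D) (k := F)) (R_ok D) ⟨0, (R_ok D).pos⟩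
      (Subgroup.mem_center_iff.2 fun h => Subtype.ext (Units.ext (adm_cen (z _) (z h) e).symm))⟩
  refine ⟨a, adm_one, b, ?_, fun A _ _ g h c d e => Units.ext (adm_cen (F := F) ?_ ?_ e)⟩
  · exact P011IT.cen_grp.subset fun g e =>
      Subgroup.mem_center_iff.2 fun h => Subtype.ext (Units.ext (adm_cen (z _) (z h) e).symm)
  all_goals
    intro p hp
    first | refine c p ?_ | refine d p ?_
    rintro x ⟨s, hs, o⟩
    obtain rfl : x = fun ij => s.1 ij.1 ij.2 := funext fun ij => o ij.1 ij.2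
    exact hp ⟨s, hs⟩

theorem spec' : SPEC := spec adm

end Vale.Agent.P011IP
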