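import Vale.Agent.P011IP.Abs
import Vale.Agent.P011IH.Main

/-!
The polynomial left inverse modulo the centre.
-/

set_option autoImplicit false
set_option linter.all false

namespace Vale.Agent.P011IP

open Matrix Finset Vale.Agent.P183CH Vale.Agent.P011UI

variable {R : RS} {k G Y : Type} [Field k] [Group G] {Γ : RG R k G} {n : ℕ}
  {ρ₁ : G →* Matrix (Fin n) (Fin n) k} {w : Fin n → Fin R.r → ℤ} {B : Subalgebra k (Y → k)}

namespace Sp

variable (h : Sp Γ ρ₁ w)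
include h

theorem hT_eq (s : Fin R.r → kˣ) :
    ρ₁ (h.ok.hT s) = diagonal fun a => ((∏ i, s i ^ w a i : kˣ) : k) := by
  induction s using Pi.mulSingle_induction with
  | one => simp
  | mul s s' h1 h2 => simp [h1, h2, mul_zpow, prod_mul_distrib]
  | mulSingle i t =>
    rw [h.ok.hT_single, h.h_eq]
    congr 1
    funext a
    rw [prod_eq_single i (fun j _ e => by simp [e]) (by simp), Pi.mulSingle_eq_same]

theorem en_ch [Infinite k] {s : Y → Fin R.r → kˣ}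
    (e : ∀ a, (fun y => ((∏ i, s y i ^ w a i : kˣ) : k)) ∈ B ∧
      (fun y => (((∏ i, s y i ^ w a i)⁻¹ : kˣ) : k)) ∈ B) (γ : R.Q) :
    (fun y => ((∏ i, s y i ^ R.pr γ i : kˣ) : k)) ∈ B := by
  let A : AddSubgroup (Fin R.r → ℤ) :=
    { carrier := {v | (fun y => ((∏ i, s y i ^ v i : kˣ) : k)) ∈ B ∧
        (fun y => (((∏ i, s y i ^ v i)⁻¹ : kˣ) : k)) ∈ B}
      zero_mem' := by
        simp only [Set.mem_setOf_eq, Pi.zero_apply, zpow_zero, prod_const_one, inv_one]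
        exact ⟨one_mem B, one_mem B⟩
      add_mem' := fun hx hy => by
        simp only [Set.mem_setOf_eq, Pi.add_apply, _root_.zpow_add, prod_mul_distrib, mul_inv,
          Units.val_mul]
        exact ⟨mul_mem hx.1 hy.1, mul_mem hx.2 hy.2⟩
      neg_mem' := fun hx => by
        simpa only [Set.mem_setOf_eq, Pi.neg_apply, _root_.zpow_neg, prod_inv_distrib, inv_inv]
          using hx.symm }
  refine (show γ ᵥ* R.A ∈ A from ?_).1
  rw [vecMul_eq_sum]
  refine sum_mem fun i _ => zsmul_mem ?_ _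
  obtain ⟨X, hX, a, b, c⟩ := h.px i
  have := h.deg (h.rt.simple i) hX c
  rw [one_smul, ← sub_eq_iff_eq_add', show R.pr (R.α i) = R.A i from funext (R.pr_α i)] at this
  exact this ▸ sub_mem (show w a ∈ A from e a) (show w b ∈ A from e b)

theorem det_one [Infinite k] (g : G) : (ρ₁ g).det = 1 := by
  have hR := h.rt
  refine (Subgroup.closure_le (detMonoidHom.comp ρ₁).ker).2 ?_ (h.ok.gen.ge (Subgroup.mem_top g))
  rintro _ ⟨i, t, rfl | rfl⟩
  · exact (h.tr_U (RG.x_mem (hR.simple i) (RS.α_nonneg i) t)).det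
  · exact (h.tr_V (RG.x_mem (hR.neg_mem (hR.simple i)) (neg_nonpos.2 (RS.α_nonneg i)) t)).det

/-- the big cell -/
theorem big [Infinite k] {g : G} (e : Dl (fun a => R.wht (w a)) (ρ₁ g) ≠ 0) :
    ∃ v ∈ Γ.V, ∃ s, ∃ u ∈ Γ.U, g = v * h.ok.hT s * u := by
  have hR := h.rt
  obtain ⟨w₀, h₀⟩ := hR.exists_Lg Set.univ
  obtain ⟨n₀, -, hn₀⟩ := RG.exists_rep' (Γ := Γ) h₀.1
  obtain ⟨u₁, h1, n₁, w₁, h2, u, h3, h4⟩ := h.ok.bruhat hR (n₀⁻¹ * g)
  have h3 := RG.X_le_U (RS.cl_Inv _).1 h3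
  have h1 := RG.VJ_le _ (h.ok.Lg_U hR hn₀ h₀ (RG.UJ_univ (Γ := Γ) ▸ h1))
  have h5 : g = n₀ * u₁ * n₀⁻¹ * (n₀ * n₁) * u := by
    rw [inv_mul_eq_iff_eq_mul.1 h4]
    group
  have h2 := hn₀.mul h2
  suffices w₀ * w₁ = 1 from
    (h.ok.exists_hT (h.ok.rep_one hR (this ▸ h2))).elim fun s hs => ⟨_, h1, s, u, h3, hs ▸ h5⟩
  refine hR.eq_one h2.mem_W fun j _ => (hR.sign' h2.mem_W (hR.simple j)).resolve_right fun c => ?_
  have key : ∀ t, ρ₁ (Γ.x (R.α j) t) = 1 := fun t =>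
    eq_one_of (N := ρ₁ (n₀ * n₁)) (h.tr_U (RG.x_mem (hR.simple j) (RS.α_nonneg j) t))
      (h.tr_V (h.ok.conj_V hR h2 (RG.x_mem (S := R.Inv _) (hR.simple j)
        ⟨hR.simple j, RS.α_nonneg j, c⟩ t)))
      (by rw [← map_mul, ← map_mul, inv_mul_cancel_right]) fun S hS => by
        have := Dl_ne e hS
        rwa [h5, map_mul, map_mul, det_bk hS (h.tr_V h1) (h.tr_U h3)] at this
  obtain ⟨X, hX, a, b, hab⟩ := h.px j
  refine hab ?_
  rw [show X a b = Polynomial.C ((1 : Matrix _ _ k) a b) from Polynomial.funext fun t => by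
    rw [Polynomial.eval_C, ← key t, hX, map_apply], Polynomial.coeff_C_ne_zero one_ne_zero]

/-- The entries of `ρ` are polynomials in the entries of `ρ₁`. -/
theorem poly [Infinite k] {J : Type} [Fintype J] [DecidableEq J] {ρ : G →* Matrix J J k}
    (hρ : ∀ B : Subalgebra k (G → k), ∀ γ ∈ R.Φ, ∀ c ∈ B, En B fun y => ρ (Γ.x γ (c y)))
    (hT : ∀ (B : Subalgebra k (G → k)) (s : G → Fin R.r → kˣ),
      (∀ γ, (fun y => ((∏ i, s y i ^ R.pr γ i : kˣ) : k)) ∈ B) → En B fun y => ρ (h.ok.hT (s y))) :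
    En (PF ρ₁) ρ := by
  refine glue' (ht := fun a => R.wht (w a)) ρ₁ ρ h.det_one ?_
  have : ∀ g, ∃ v ∈ Γ.V, ∃ s, ∃ u ∈ Γ.U, Dl (fun a => R.wht (w a)) (ρ₁ g) ≠ 0 →
      g = v * h.ok.hT s * u := fun g => by
    by_cases e : Dl (fun a => R.wht (w a)) (ρ₁ g) = 0
    · exact ⟨1, one_mem _, 1, 1, one_mem _, fun e' => absurd e e'⟩
    · obtain ⟨v, h1, s, u, h2, h3⟩ := h.big e
      exact ⟨v, h1, s, u, h2, fun _ => h3⟩
  choose v h1 s u h2 h3 using this
  have h4 : ∀ g, Dl (fun a => R.wht (w a)) (ρ₁ g) ≠ 0 → ρ₁ (v g) *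
      diagonal (fun a => ((∏ i, s g i ^ w a i : kˣ) : k)) * ρ₁ (u g) = ρ₁ g := fun g e => by
    conv_rhs => rw [h3 g e, map_mul, map_mul, h.hT_eq]
  have h5 := ldu (B := Lc (PF ρ₁) _ (en_PF _).dl) (fun g => h.tr_V (h1 g)) (fun g => h.tr_U (h2 g))
    (d := fun g a => ∏ i, s g i ^ w a i)
    (fun a b => ⟨0, _, en_PF ρ₁ a b, fun g e => by simp only [h4 g e, pow_zero, one_mul]⟩)
    fun S hS => by
      classical
      refine ⟨1, _, prod_mem fun S' (_ : S' ∈ (univ.filter (Up fun a => R.wht (w a))).erase S) =>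
        (en_PF ρ₁).bk S', fun g e => ?_⟩
      dsimp only
      rw [h4 g e, pow_one, mul_inv_eq_iff_eq_mul₀ (Dl_ne e hS), Finset.prod_apply,
        prod_erase_mul _ _ (by simpa using hS)]
      rfl
  have h6 := ((h.en_V (hρ _) h1 fun a b => (h5 b).1 a).mul
    (hT _ s (h.en_ch fun a => (h5 a).2.2))).mul (h.en_U (hρ _) h2 fun a b => (h5 a).2.1 b)
  intro a b
  obtain ⟨m, q, h7, h8⟩ := h6 a b
  refine ⟨m, q, h7, fun g e => ?_⟩
  rw [← h8 g e]
  dsimp only
  rw [← map_mul, ← map_mul, ← h3 g e]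

end Sp

open Vale.Agent.P011I Vale.Agent.P011U Vale.Agent.P183CH.Chev

theorem adj_val {D : Chev} (g : D.grp k) : g.1.1.adjugate = g⁻¹.1.1 := by
  rw [← mul_one (adjugate _), ← g.1.mul_inv, ← mul_assoc, adjugate_mul, P011UH.det_grp, one_smul,
    one_mul]
  rfl

theorem pi (hA : ADM) : PI := fun F _ _ n R S hS D ε hD e ψ hψ p q => by
  obtain ⟨a1, a2, -⟩ := hA D F
  let ρ : D.grp F →* Matrix (JJ D) (JJ D) F := ⟨⟨fun g => Adm D g.1.1, a2⟩, a1⟩
  have hf : ∀ i t, ψ ((GG D F).x (D.R.α i) t) = P011IH.ux hS (ε i) t ∧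
      ψ ((GG D F).x (-D.R.α i) t) = P011IH.uy hS (ε i) t := fun i t =>
    ⟨Units.ext ((hψ _ i t).1 (congrArg Units.val (GG_e i t))),
      Units.ext ((hψ _ i t).2 (congrArg Units.val (GG_f i t)))⟩
  have h : Sp (GG D F) ((Units.coeHom _).comp ψ) fun a i => S.μ (ε i) a :=
    ⟨R_ok D, GG_ok, fun i t => congrArg Units.val (((P011IH.pn_eq hS ε e).pol hD hf).2.2 i t),
      fun i => ⟨S.X (ε i), fun t => congrArg Units.val (hf i t).1, hS.x1 _⟩⟩
  refine (mem_PF.1 (h.poly (ρ := ρ) (fun B γ hγ c hc => ?_) (fun B s hs => ?_) p q)).imp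
    fun w hw g => (hw g).symm
  · have : En B fun y => ((GG D F).x γ (c y)).1.1 := fun a b => by
      obtain ⟨r, hr⟩ := P011UH.xm_pol (K := F) (D.EE γ) a b
      convert P011UH.pol_mem hc r
      exact (congrFun₂ (GG_mat.x_eq γ hγ _) a b).trans (hr _)
    exact fun a b => mul_mem (this _ _) (this.adj _ _)
  · intro a b
    obtain ⟨γ, hγ⟩ := lb_eq.1 a.2
    have key : ∀ y, ρ (GG_ok.hT (s y)) a b =
        if a = b then ((∏ i, s y i ^ D.R.pr γ i : Fˣ) : F) else 0 := fun y => by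
      refine (congrArg₂ (· * ·) (congrFun₂ (hT_val _) _ _) (congrFun₂ ((adj_val _).trans
        (map_inv GG_ok.hT (s y) ▸ hT_val (s y)⁻¹)) _ _)).trans ?_
      split_ifs with c
      · rw [← c, diagonal_apply_eq, diagonal_apply_eq, ← Units.val_mul, ← prod_mul_distrib]
        refine congrArg _ (prod_congr rfl fun i _ => ?_)
        rw [show D.μ i a.1.1 = _ from congrFun hγ i, Pi.add_apply, _root_.zpow_add, Pi.inv_apply,
          _root_.inv_zpow, mul_right_comm]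
        exact (congrArg (· * _) (mul_inv_cancel _)).trans (one_mul _)
      by_cases d : a.1.1 = b.1.1
      · rw [diagonal_apply_ne _ fun f => c (Subtype.ext (Prod.ext d f.symm)), mul_zero]
      · rw [diagonal_apply_ne _ d, zero_mul]
    simp only [key]
    split_ifs
    exacts [hs γ, zero_mem B]

end Vale.Agent.P011IP
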