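import Vale.Agent.P011I.IF

/-!
P011I (helper21): specialisation of the certificate.
-/

set_option autoImplicit false
set_option linter.all false

namespace Vale.Agent.P011IP

open Matrix Vale.Agent.P011I Vale.Agent.P183CH Vale.Agent.P183CH.Chev Vale.Agent.P011U
open scoped TensorProduct

section pol

variable {m J J' J'' R R' L L' : Type} [CommRing R] [CommRing L] [Algebra R L] [CommRing R']
  [CommRing L'] [Algebra R' L']

variable (R) in
/-- the value at a matrix -/
noncomputable def ev (x : Matrix m m L) : MvPolynomial (m × m) R →ₐ[R] L :=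
  MvPolynomial.aeval fun e => x e.1 e.2

theorem ev_hom (f : R →+* R') (ρ : L →+* L') (h : ∀ c, ρ (algebraMap R L c) = algebraMap R' L' (f c))
    (x : Matrix m m L) (p : MvPolynomial (m × m) R) :
    ρ (ev R x p) = ev R' (x.map ρ) (MvPolynomial.map f p) := by
  induction p using MvPolynomial.induction_on with
  | C c => simp [ev, h]
  | add p q hp hq => simp only [map_add, hp, hq]
  | mul_X p e hp => simp only [map_mul, hp]; simp [ev]

theorem ap_hom (f : R →+* R') (ρ : L →+* L') (h : ∀ c, ρ (algebraMap R L c) = algebraMap R' L' (f c))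
    (P : Matrix J J (MvPolynomial (m × m) R)) (x : Matrix m m L) :
    (ap P x).map ρ = ap (P.map (MvPolynomial.map f)) (x.map ρ) :=
  Matrix.ext fun a b => ev_hom f ρ h x (P a b)

theorem ev_map [Algebra R L'] (ρ : L →+* L') (h : ∀ c, ρ (algebraMap R L c) = algebraMap R L' c)
    (x : Matrix m m L) (p : MvPolynomial (m × m) R) : ρ (ev R x p) = ev R (x.map ρ) p :=
  (ev_hom (.id R) ρ h x p).trans (by rw [MvPolynomial.map_id])

theorem ap_map [Algebra R L'] (ρ : L →+* L') (h : ∀ c, ρ (algebraMap R L c) = algebraMap R L' c)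
    (P : Matrix J J (MvPolynomial (m × m) R)) (x : Matrix m m L) :
    (ap P x).map ρ = ap P (x.map ρ) :=
  Matrix.ext fun a b => ev_map ρ h x (P a b)

theorem adm_map {D : Chev} (ρ : L →+* L') (x : D.Mat L) : (Adm D x).map ρ = Adm D (x.map ρ) :=
  Matrix.ext fun a b => by
    have := ρ.map_adjugate x
    simp only [RingHom.mapMatrix_apply] at this
    simp only [Adm, map_apply, of_apply, map_mul, ← this]

/-- polynomial maps -/
def Pm (f : Matrix m m L → Matrix J J L) : Prop :=
  ∃ Q : Matrix J J (MvPolynomial (m × m) L), ∀ z, Q.map (ev L z).toRingHom = f z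

theorem Pm.id : Pm fun z : Matrix m m L => z :=
  ⟨of fun a b => .X (a, b), fun z => Matrix.ext fun a b => MvPolynomial.aeval_X _ _⟩

theorem Pm.const (y : Matrix J J L) : Pm fun _ : Matrix m m L => y :=
  ⟨y.map (algebraMap L _), fun z => Matrix.ext fun a b => (ev L z).commutes _⟩

theorem Pm.mul [Fintype J] {f g : Matrix m m L → Matrix J J L} : Pm f → Pm g →
    Pm fun z => f z * g z := fun ⟨Q, h⟩ ⟨Q', h'⟩ =>
  ⟨Q * Q', fun z => by rw [Matrix.map_mul, h, h']⟩

theorem Pm.ap {f : Matrix m m L → Matrix J J L} (W : Matrix J' J' (MvPolynomial (J × J) R)) :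
    Pm f → Pm fun z => ap W (f z) := fun ⟨Q, h⟩ =>
  ⟨P011I.ap W Q, fun z => (ap_map _ (fun c => ((ev L z).restrictScalars R).commutes c) _ _).trans
    (congrArg _ (h z))⟩

theorem Pm.adm {D : Chev} {f : Matrix m m L → D.Mat L} : Pm f → Pm fun z => Adm D (f z) :=
  fun ⟨Q, h⟩ => ⟨Adm D Q, fun z => by rw [adm_map, h]⟩

/-- a polynomial as a matrix -/
def sc (p : R) : Matrix Unit Unit R := of fun _ _ => p

theorem sc_zero {x : Matrix m m L} {p : MvPolynomial (m × m) R} : ap (sc p) x = 0 ↔ ev R x p = 0 :=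
  ⟨fun h => congrFun₂ h () (), fun h => Matrix.ext fun _ _ => h⟩

end pol

section cl

variable {ι m J F B : Type} [Field F] [CommRing B] [Algebra F B] {S : ι → Matrix m m F}
  {x y : Matrix m m B}

/-- points of the closure -/
def Cl (S : ι → Matrix m m F) (x : Matrix m m B) : Prop :=
  ∀ p, (∀ s, ev F (S s) p = 0) → ev F x p = 0

theorem Cl.van (h : Cl S x) {q : MvPolynomial (m × m) B}
    (hq : ∀ s, ev B ((S s).map (algebraMap F B)) q = 0) : ev B x q = 0 := by
  obtain ⟨T, rfl⟩ := (MvPolynomial.algebraTensorAlgEquiv F B).surjective q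
  obtain ⟨c, rfl⟩ := TensorProduct.eq_repr_basis_left (Module.Basis.ofVectorSpace F B) T
  simp only [Finsupp.sum, map_sum, MvPolynomial.algebraTensorAlgEquiv_tmul, map_smul, smul_eq_mul,
    ev, MvPolynomial.aeval_map_algebraMap] at hq ⊢
  refine Finset.sum_eq_zero fun i hi => mul_eq_zero_of_right _ (h _ fun s =>
    linearIndependent_iff'.1 (Module.Basis.ofVectorSpace F B).linearIndependent _
      (fun i => ev F (S s) (c i)) ?_ i hi)
  rw [← hq s]
  refine Finset.sum_congr rfl fun i _ => ?_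
  rw [Algebra.smul_def, mul_comm]
  exact congrArg (_ * ·) (ev_map (algebraMap F B) (fun _ => rfl) _ _)

theorem Cl.eq (h : Cl S x) {f g : Matrix m m B → Matrix J J B} (hf : Pm f) (hg : Pm g)
    (e : ∀ s, f ((S s).map (algebraMap F B)) = g ((S s).map (algebraMap F B))) : f x = g x := by
  obtain ⟨Q, hf⟩ := hf
  obtain ⟨Q', hg⟩ := hg
  rw [← hf, ← hg]
  refine Matrix.ext fun a b => sub_eq_zero.1 ((map_sub (ev B x) _ _).symm.trans (h.van fun s => ?_))
  rw [map_sub, sub_eq_zero]
  exact congrFun₂ ((hf _).trans ((e s).trans (hg _).symm)) a b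

theorem Cl.map {B' : Type} [CommRing B'] [Algebra F B'] (h : Cl S x) (ρ : B →ₐ[F] B') :
    Cl S (x.map ρ) := fun p hp => by
  have := ev_map ρ.toRingHom ρ.commutes x p
  rw [h p hp, map_zero] at this
  exact this.symm

theorem Cl.mul [Fintype m] [Fintype J] (hx : Cl S x) (hy : Cl S y)
    {W : Matrix J J (MvPolynomial (m × m) F)} (h : ∀ s t, ap W (S s * S t) = ap W (S s) * ap W (S t)) :
    ap W (x * y) = ap W x * ap W y :=
  hx.eq ((Pm.id.mul (.const y)).ap W) ((Pm.id.ap W).mul (.const _)) fun s =>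
    hy.eq (((Pm.const _).mul .id).ap W) ((Pm.const _).mul (Pm.id.ap W)) fun t => by
      simp only [← ap_map (algebraMap F B) (fun _ => rfl), ← Matrix.map_mul, h]

end cl

section core

variable {D : Chev} {k F B : Type} [Field k] [Field F] [CommRing B] [Algebra k F] [Algebra k B]
  [Algebra F B] [IsScalarTower k F B]

theorem cl_grp [Infinite k] (g : D.grp F) : Cl (fun s : D.grp k => s.1.1) g.1.1 :=
  P011UH.zc_grp g

theorem cl_up {x : D.Mat B} (h : Cl (fun s : D.grp k => s.1.1) x) :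
    Cl (fun s : D.grp F => s.1.1) x := fun p hp =>
  sc_zero.1 (h.eq (Pm.id.ap (sc p)) (.const 0) fun s => sc_zero.2 (by
    have := ev_map (algebraMap F B) (fun _ => rfl) (fm D (algebraMap k F) s).1.1 p
    rw [hp, map_zero, fm_val, Matrix.map_map, ← RingHom.coe_comp,
      ← IsScalarTower.algebraMap_eq] at this
    exact this.symm))

variable {Ω A B₀ K : Type} [Field Ω] [Algebra k Ω] [CommRing A] [CommRing B₀] [Algebra A B₀]
  [Algebra k B₀] [Field K] [Algebra K Ω] {n : ℕ} {G : Subgroup (GL (Fin n) Ω)}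
  {v : A →+* F} {σ : A →+* K} {i : B₀ →+* B} {u : B₀ →+* Ω} {j : Ω →+* B₀}

variable (k) in
/-- the data of the transfer -/
structure Tr (v : A →+* F) (σ : A →+* K) (i : B₀ →+* B) (u : B₀ →+* Ω) (j : Ω →+* B₀) : Prop where
  inj : Function.Injective i
  e1 : ∀ a, i (algebraMap A B₀ a) = algebraMap F B (v a)
  e2 : ∀ a, u (algebraMap A B₀ a) = algebraMap K Ω (σ a)
  e3 : ∀ w, u (j w) = w
  ci : ∀ c, i (algebraMap k B₀ c) = algebraMap k B c
  cu : ∀ c, u (algebraMap k B₀ c) = algebraMap k Ω c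
  cj : ∀ c, j (algebraMap k Ω c) = algebraMap k B₀ c

theorem t4 {J m : Type} (Q : Matrix J J (MvPolynomial (m × m) F)) (x : Matrix m m F) :
    ap Q (x.map (algebraMap F B)) = (ap Q x).map (algebraMap F B) :=
  (ap_map (algebraMap F B) (fun _ => rfl) Q x).symm

theorem m1 {J R L : Type} [DecidableEq J] [CommRing R] [CommRing L] (f : R →+* L) :
    (1 : Matrix J J R).map f = 1 := Matrix.map_one _ (map_zero _) (map_one _)

theorem m0 {J R L : Type} [CommRing R] [CommRing L] (f : R →+* L) :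
    (0 : Matrix J J R).map f = 0 := Matrix.map_zero _ (map_zero _)

namespace Tr

variable (T : Tr k v σ i u j) {J m : Type}
include T

theorem tr {a b : Matrix J J B₀} (h : a.map i = b.map i) : a.map u = b.map u := by
  rw [Matrix.map_injective T.inj h]

theorem t1 (Q : Matrix J J (MvPolynomial (m × m) A)) (x : Matrix m m B₀) :
    (ap Q x).map i = ap (Q.map (MvPolynomial.map v)) (x.map i) := ap_hom v i T.e1 Q x

theorem t2 (Q : Matrix J J (MvPolynomial (m × m) A)) (x : Matrix m m B₀) :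
    (ap Q x).map u = ap (Q.map (MvPolynomial.map σ)) (x.map u) := ap_hom σ u T.e2 Q x

theorem t3 (x : Matrix m m Ω) : (x.map j).map u = x := Matrix.ext fun a b => T.e3 _

theorem cD [Infinite k] (g : D.grp Ω) : Cl (fun s : D.grp F => s.1.1) ((g.1.1.map j).map i) :=
  cl_up (((cl_grp (k := k) g).map ⟨j, T.cj⟩).map ⟨i, T.ci⟩)

theorem cG {ψ : D.grp F →* GL (Fin n) F} (h3 : P092AG.van (ψ.range : Set (GL (Fin n) F)) =
    (P092GV.vanish k G).map (MvPolynomial.map (algebraMap k F))) (g : G) :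
    Cl (fun s => (ψ s).1) ((g.1.1.map j).map i) := fun p hp => by
  refine (Ideal.map_le_iff_le_comap (K := RingHom.ker (ev F ((g.1.1.map j).map i)))).2
    (fun q hq => ?_) (h3.le (show p ∈ _ from ?_))
  · have := ev_hom (algebraMap k F) (i.comp j) (fun c => by
      rw [← IsScalarTower.algebraMap_apply, RingHom.comp_apply, T.cj, T.ci]) g.1.1 q
    rw [show ev k g.1.1 q = 0 from hq _ ⟨g, g.2, fun _ _ => rfl⟩, map_zero] at this
    exact this.symm
  · rintro _ ⟨s, rfl⟩
    exact (DFunLike.congr_fun (MvPolynomial.coe_aeval_eq_eval _) p).symm.trans (hp s)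

theorem mu [Fintype J] [Fintype m] [DecidableEq J] [DecidableEq m]
    (Q : Matrix J J (MvPolynomial (m × m) A)) {H : Type} [Group H] (S : H →* Matrix m m F)
    {H' : Type} [Group H'] (U : H' →* Matrix m m Ω) (c : ∀ g, Cl S (((U g).map j).map i))
    (f : H →* Matrix J J F) (a : ∀ s, ap (Q.map (MvPolynomial.map v)) (S s) = f s) :
    ∃ π : H' →* Matrix J J Ω, ∀ g, π g = ap (Q.map (MvPolynomial.map σ)) (U g) := by
  refine ⟨⟨⟨fun g => ap (Q.map (MvPolynomial.map σ)) (U g), ?_⟩, fun g h => ?_⟩, fun _ => rfl⟩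
  · have := T.tr (a := ap Q 1) (b := 1) (by
      rw [T.t1, m1, m1, ← m1 (algebraMap F B), t4, ← S.map_one, a, f.map_one, m1])
    rwa [T.t2, m1, m1, ← U.map_one] at this
  · have := T.tr (a := ap Q ((U g).map j * (U h).map j))
      (b := ap Q ((U g).map j) * ap Q ((U h).map j)) (by
        rw [Matrix.map_mul, T.t1, T.t1, T.t1, Matrix.map_mul]
        exact (c g).mul (c h) fun s t => by rw [← S.map_mul, a, a, a, f.map_mul])
    rwa [Matrix.map_mul, T.t2, T.t2, T.t2, Matrix.map_mul, T.t3, T.t3, ← U.map_mul] at this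

variable [Infinite k] {ψ : D.grp F →* GL (Fin n) F} {P : P092AG.Mt n (P092AG.Pl D.n A)}
  {W : Matrix (JJ D) (JJ D) (P092AG.Pl n A)}

theorem mem (h1 : ∀ g, (ψ g).1 = ap (P.map (MvPolynomial.map v)) g.1.1) {q : P092AG.Pl n k}
    (hq : ∀ s, ev k (ψ s).1 q = 0) (g : D.grp Ω) :
    ev k (ap (P.map (MvPolynomial.map σ)) g.1.1) q = 0 := by
  have := T.tr (a := ap (sc q) (ap P (g.1.1.map j))) (b := 0) (by
    rw [ap_map i T.ci, T.t1, m0]
    refine (T.cD g).eq ((Pm.id.ap _).ap _) (.const 0) fun s => sc_zero.2 ?_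
    rw [t4, ← h1, ← ev_map (algebraMap F B) fun c => (IsScalarTower.algebraMap_apply k F B c).symm,
      hq, map_zero])
  rwa [ap_map u T.cu, T.t2, T.t3, m0, sc_zero] at this

theorem inv (h1 : ∀ g, (ψ g).1 = ap (P.map (MvPolynomial.map v)) g.1.1)
    (h2 : ∀ g, ap (W.map (MvPolynomial.map v)) (ψ g).1 = Adm D g.1.1) (g : D.grp Ω) :
    ap (W.map (MvPolynomial.map σ)) (ap (P.map (MvPolynomial.map σ)) g.1.1) = Adm D g.1.1 := by
  have := T.tr (a := ap W (ap P (g.1.1.map j))) (b := Adm D (g.1.1.map j)) (by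
    rw [T.t1, T.t1, adm_map]
    exact (T.cD g).eq ((Pm.id.ap _).ap _) Pm.id.adm fun s => by rw [t4, t4, ← h1, h2, adm_map])
  rwa [T.t2, T.t2, adm_map, T.t3] at this

theorem last (h2 : ∀ g, ap (W.map (MvPolynomial.map v)) (ψ g).1 = Adm D g.1.1)
    {x : P092AG.Mt n Ω} (hx : Cl (fun s => (ψ s).1) ((x.map j).map i))
    {q : MvPolynomial (JJ D × JJ D) Ω} (hq : ∀ g : D.grp Ω, ev Ω (Adm D g.1.1) q = 0) :
    ev Ω (ap (W.map (MvPolynomial.map σ)) x) q = 0 := by
  have : ev B₀ (ap W (x.map j)) (MvPolynomial.map j q) = 0 := T.inj (by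
    rw [ev_hom i i fun _ => rfl, MvPolynomial.map_map, T.t1, map_zero, ← sc_zero]
    refine hx.eq ((Pm.id.ap _).ap _) (.const 0) fun s => ?_
    rw [t4, h2, adm_map]
    refine ((cl_grp (k := k) s).map (IsScalarTower.toAlgHom k F B)).eq (Pm.id.adm.ap _) (.const 0)
      fun t => sc_zero.2 ?_
    have := ev_hom (R := Ω) (R' := B) (i.comp j) (i.comp j) (fun _ => rfl)
      (Adm D (fm D (algebraMap k Ω) t).1.1) q
    rw [hq, map_zero, adm_map, fm_val, Matrix.map_map, ← RingHom.coe_comp,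
      show (i.comp j).comp (algebraMap k Ω) = algebraMap k B from
        RingHom.ext fun c => (congrArg i (T.cj c)).trans (T.ci c)] at this
    exact this.symm)
  have b := congrArg u this
  rwa [ev_hom (R' := Ω) u u fun _ => rfl, T.t2, T.t3, map_zero, MvPolynomial.map_map,
    show u.comp j = .id Ω from RingHom.ext T.e3, MvPolynomial.map_id] at b

theorem core (hA : ADM) (hG : P092AG.AbsSimple k G)
    (h1 : ∀ g, (ψ g).1 = ap (P.map (MvPolynomial.map v)) g.1.1)
    (h2 : ∀ g, ap (W.map (MvPolynomial.map v)) (ψ g).1 = Adm D g.1.1)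
    (h3 : P092AG.van (ψ.range : Set (GL (Fin n) F)) =
      (P092GV.vanish k G).map (MvPolynomial.map (algebraMap k F))) : C1 K G D := by
  have : Infinite F := Infinite.of_injective _ (algebraMap k F).injective
  obtain ⟨φ, hφ⟩ := T.mu P (D.nat F) (D.nat Ω) T.cD ((Units.coeHom _).comp ψ) fun s => (h1 s).symm
  obtain ⟨π, hπ⟩ := T.mu W ((Units.coeHom _).comp ψ) ((Units.coeHom _).comp G.subtype) (T.cG h3)
    ⟨⟨fun g => Adm D g.1.1, (hA D F).2.1⟩, (hA D F).1⟩ h2
  have e : ∀ {K : Type} [Field K] [Algebra k K] (x : P092AG.Mt n K) (q : P092AG.Pl n k),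
      P092AG.ev x (MvPolynomial.map (algebraMap k K) q) = ev k x q := fun x q =>
    MvPolynomial.eval_map _ _ _
  have mem : ∀ g, φ.toHomUnits g ∈ G := fun g => hG.closed _ fun p hp =>
    (Ideal.span_le (I := RingHom.ker (P092AG.ev (φ g)))).2 (by
      rintro _ ⟨hq, q, rfl⟩
      refine (e _ _).trans ?_
      rw [hφ]
      exact T.mem h1 (fun s => (e _ _).symm.trans
        (h3.ge (Ideal.mem_map_of_mem _ (mem_vanish.2 hq)) _ ⟨s, rfl⟩)) g) (hG.defd hp)
  have e' : ∀ (x : Matrix (JJ D) (JJ D) Ω) q, MvPolynomial.eval (fun e => x e.1 e.2) q = ev Ω x q :=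
    fun x q => (DFunLike.congr_fun (MvPolynomial.coe_aeval_eq_eval _) q).symm
  refine ⟨φ.toHomUnits.codRestrict G mem, π, _, _, hφ, hπ, fun g => ?_, fun q hq g => ?_⟩
  · exact (hπ _).trans ((congrArg _ (hφ g)).trans (T.inv h1 h2 g))
  · rw [e', hπ]
    exact T.last h2 (T.cG h3 g) fun g => (e' _ _).symm.trans (hq g)

end Tr

end core

theorem spec (hA : ADM) : SPEC := by
  intro k K Ω F _ _ _ _ _ _ _ _ _ _ _ hs n G hG D _ ⟨ψ, P, W, h1, h2, h3⟩
  obtain ⟨A, σ, hT⟩ := P011IS.spec K hs ((⋃ a, ⋃ b, (P a b).coeffs) ∪ ⋃ a, ⋃ b, (W a b).coeffs)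
    ((Set.finite_iUnion fun _ => Set.finite_iUnion fun _ => Finset.finite_toSet _).union
      (Set.finite_iUnion fun _ => Set.finite_iUnion fun _ => Finset.finite_toSet _))
  choose P₀ hP using fun a b => MvPolynomial.mem_range_map_iff_coeffs_subset
    (f := (A.val : A →+* F)) (x := P a b).2 fun t ht =>
      ⟨⟨t, hT (.inl (Set.mem_iUnion₂.2 ⟨a, b, ht⟩))⟩, rfl⟩
  choose W₀ hW using fun a b => MvPolynomial.mem_range_map_iff_coeffs_subset
    (f := (A.val : A →+* F)) (x := W a b).2 fun t ht =>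
      ⟨⟨t, hT (.inr (Set.mem_iUnion₂.2 ⟨a, b, ht⟩))⟩, rfl⟩
  obtain rfl : (of P₀).map (MvPolynomial.map (A.val : A →+* F)) = P := Matrix.ext hP
  obtain rfl : (of W₀).map (MvPolynomial.map (A.val : A →+* F)) = W := Matrix.ext hW
  let i := Algebra.TensorProduct.map A.val (.id k Ω)
  let u := Algebra.TensorProduct.productMap ((IsScalarTower.toAlgHom k K Ω).comp σ) (.id k Ω)
  let j : Ω →ₐ[k] A ⊗[k] Ω := Algebra.TensorProduct.includeRight
  have T : Tr k (A.val : A →+* F) (σ : A →+* K) i.toRingHom u.toRingHom j.toRingHom :=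
    ⟨Module.Flat.rTensor_preserves_injective_linearMap (M := Ω) A.val.toLinearMap
      Subtype.val_injective, fun a => by simp [i], fun a => by simp [u], fun a => by simp [u, j],
      i.commutes, u.commutes, j.commutes⟩
  exact T.core hA hG h1 h2 h3

end Vale.Agent.P011IP
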